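import Mathlib

/-!
# P355: no three mutually unbiased bases in dimension six with N-th root of unity phases

If a power of `p` is `-1` modulo `N`, then Frobenius induces complex conjugation on `ℤ[ζ]/p`,
so `z * conj z = 6` has no solution in `ℤ[ζ]` for `p = 2, 3`.
-/

noncomputable section

open scoped ComplexConjugate

namespace Vale.Agent.Results.P355.RootOfUnityPhases

/-- Frobenius is conjugation modulo `p` on `ℤ[ζ]`. -/
theorem frob_conj {p j N : ℕ} (hp : p.Prime) (hN : N ∣ p ^ j + 1) {ζ : ℂ} (hζ : ζ ^ N = 1)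
    (hconj : conj ζ = ζ⁻¹) {z : ℂ} (hz : z ∈ Subring.closure ({ζ} : Set ℂ)) :
    ∃ r ∈ Subring.closure ({ζ} : Set ℂ), z ^ p ^ j = conj z + p * r := by
  have hfrob : ζ ^ p ^ j = ζ⁻¹ := by
    obtain ⟨c, hc⟩ := hN
    refine eq_inv_of_mul_eq_one_left ?_
    rw [← pow_succ, hc, pow_mul, hζ, one_pow]
  have hclosed : ∀ w ∈ Subring.closure ({ζ} : Set ℂ), conj w ∈ Subring.closure ({ζ} : Set ℂ) := by
    intro w hw
    induction hw using Subring.closure_induction with
    | mem x hx =>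
      rw [Set.mem_singleton_iff] at hx
      rw [hx, hconj, ← hfrob]
      exact pow_mem (Subring.subset_closure (Set.mem_singleton ζ)) _
    | zero => simp [zero_mem]
    | one => simp [one_mem]
    | add x y _ _ hx hy => rw [map_add]; exact add_mem hx hy
    | neg x _ hx => rw [map_neg]; exact neg_mem hx
    | mul x y _ _ hx hy => rw [map_mul]; exact mul_mem hx hy
  induction hz using Subring.closure_induction with
  | mem x hx =>
    rw [Set.mem_singleton_iff] at hx
    refine ⟨0, zero_mem _, ?_⟩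
    rw [mul_zero, add_zero, hx, hconj, hfrob]
  | zero => exact ⟨0, zero_mem _, by simp [hp.ne_zero]⟩
  | one => exact ⟨0, zero_mem _, by simp⟩
  | add x y hx hy ihx ihy =>
    obtain ⟨r, hr, ex⟩ := ihx
    obtain ⟨s, hs, ey⟩ := ihy
    obtain ⟨t, ht⟩ := exists_add_pow_prime_pow_eq (R := Subring.closure ({ζ} : Set ℂ)) hp
      ⟨x, hx⟩ ⟨y, hy⟩ j
    have ht' := congrArg Subtype.val ht
    push_cast at ht'
    refine ⟨r + s + x * y * t, add_mem (add_mem hr hs) (mul_mem (mul_mem hx hy) t.2), ?_⟩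
    rw [ht', ex, ey, map_add]
    ring
  | neg x hx ihx =>
    obtain ⟨r, hr, ex⟩ := ihx
    rcases hp.eq_two_or_odd' with rfl | hodd
    · rcases (2 ^ j).even_or_odd with he | ho
      · refine ⟨r + conj x, add_mem hr (hclosed x hx), ?_⟩
        rw [he.neg_pow, ex, map_neg]
        push_cast
        ring
      · refine ⟨-r, neg_mem hr, ?_⟩
        rw [ho.neg_pow, ex, map_neg]
        ring
    · refine ⟨-r, neg_mem hr, ?_⟩
      rw [(hodd.pow).neg_pow, ex, map_neg]
      ring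
  | mul x y hx hy ihx ihy =>
    obtain ⟨r, hr, ex⟩ := ihx
    obtain ⟨s, hs, ey⟩ := ihy
    refine ⟨conj x * s + r * conj y + p * r * s,
      add_mem (add_mem (mul_mem (hclosed x hx) hs) (mul_mem hr (hclosed y hy)))
        (mul_mem (mul_mem (natCast_mem _ p) hr) hs), ?_⟩
    rw [mul_pow, ex, ey, map_mul]
    ring

/-- No element of `ℤ[ζ]` has squared modulus six. -/
theorem no_norm_six {p j N : ℕ} (hN0 : 0 < N) (hp : p = 2 ∨ p = 3) (hj : 1 ≤ j)
    (hN : N ∣ p ^ j + 1) {ζ : ℂ} (hζ : ζ ^ N = 1) {z : ℂ}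
    (hz : z ∈ Subring.closure ({ζ} : Set ℂ)) : z * conj z ≠ 6 := by
  intro h6
  have hpp : p.Prime := by rcases hp with rfl | rfl <;> norm_num
  have hn : ‖ζ‖ = 1 := Complex.norm_eq_one_of_pow_eq_one hζ hN0.ne'
  have hconj : conj ζ = ζ⁻¹ := (Complex.inv_eq_conj hn).symm
  have hint : ∀ w ∈ Subring.closure ({ζ} : Set ℂ), IsIntegral ℤ w ∧ IsIntegral ℤ (conj w) := by
    intro w hw
    induction hw using Subring.closure_induction with
    | mem x hx =>
      rw [Set.mem_singleton_iff] at hx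
      rw [hx]
      exact ⟨IsIntegral.of_pow hN0 (by rw [hζ]; exact isIntegral_one),
        IsIntegral.of_pow hN0 (by rw [← map_pow, hζ, map_one]; exact isIntegral_one)⟩
    | zero => simp [isIntegral_zero]
    | one => simp [isIntegral_one]
    | add x y _ _ hx hy => rw [map_add]; exact ⟨hx.1.add hy.1, hx.2.add hy.2⟩
    | neg x _ hx => rw [map_neg]; exact ⟨hx.1.neg, hx.2.neg⟩
    | mul x y _ _ hx hy => rw [map_mul]; exact ⟨hx.1.mul hy.1, hx.2.mul hy.2⟩
  obtain ⟨r, hr, e⟩ := frob_conj hpp hN hζ hconj hz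
  set q := p ^ j with hq
  -- `z ^ (q + 1)` is a multiple of `p`
  obtain ⟨a, ha⟩ : p ∣ 6 := by rcases hp with rfl | rfl <;> norm_num
  have h6' : (6 : ℂ) = p * a := by exact_mod_cast congrArg (Nat.cast : ℕ → ℂ) ha
  have hsucc : z ^ (q + 1) = p * (a + z * r) := by
    rw [pow_succ, e, add_mul, mul_comm (conj z), h6, h6']
    ring
  -- applying the congruence twice
  have hzc : conj z ∈ Subring.closure ({ζ} : Set ℂ) := by
    have : conj z = z ^ q - p * r := by rw [e]; ring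
    rw [this]
    exact sub_mem (pow_mem hz _) (mul_mem (natCast_mem _ _) hr)
  obtain ⟨r', hr', e'⟩ := frob_conj hpp hN hζ hconj hzc
  rw [Complex.conj_conj] at e'
  obtain ⟨t, ht⟩ := exists_add_pow_prime_pow_eq (R := Subring.closure ({ζ} : Set ℂ)) hpp
    ⟨conj z, hzc⟩ ((p : Subring.closure ({ζ} : Set ℂ)) * ⟨r, hr⟩) j
  have ht' := congrArg Subtype.val ht
  push_cast at ht'
  rw [← hq, ← e, mul_pow, e'] at ht'
  have hq2 : 2 ≤ q := le_trans hpp.two_le (Nat.le_self_pow (by omega) p)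
  obtain ⟨m, hm⟩ : ∃ m, q * q = q + 1 + m := Nat.exists_eq_add_of_le (by nlinarith)
  have hpq : (p : ℂ) ^ q = p * (p : ℂ) ^ (q - 1) := by
    rw [← pow_succ', Nat.sub_add_cancel (by omega)]
  rw [← pow_mul, hm, pow_add, hsucc, hpq] at ht'
  -- hence `z = p * w`, which contradicts integrality
  set w := (a + z * r) * z ^ m - (r' + (p : ℂ) ^ (q - 1) * r ^ q + conj z * (p * r) * t) with hw
  have hzw : z = p * w := by rw [hw]; linear_combination -ht'
  have hwmem : w ∈ Subring.closure ({ζ} : Set ℂ) :=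
    sub_mem (mul_mem (add_mem (natCast_mem _ _) (mul_mem hz hr)) (pow_mem hz _))
      (add_mem (add_mem hr' (mul_mem (pow_mem (natCast_mem _ _) _) (pow_mem hr _)))
        (mul_mem (mul_mem hzc (mul_mem (natCast_mem _ _) hr)) t.2))
  have hi : IsIntegral ℤ (w * conj w) := (hint w hwmem).1.mul (hint w hwmem).2
  have hp0 : (p : ℂ) ≠ 0 := Nat.cast_ne_zero.2 hpp.ne_zero
  have hval : w * conj w = algebraMap ℚ ℂ (6 / (p : ℚ) ^ 2) := by
    rw [map_div₀, map_pow, map_natCast, map_ofNat, eq_div_iff (pow_ne_zero _ hp0), ← h6, hzw,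
      map_mul, map_natCast]
    ring
  rw [hval, isIntegral_algebraMap_iff (algebraMap ℚ ℂ).injective] at hi
  obtain ⟨k, hk⟩ := (IsIntegrallyClosed.isIntegral_iff (R := ℤ)).1 hi
  rw [eq_comm, div_eq_iff (pow_ne_zero _ (Nat.cast_ne_zero.2 hpp.ne_zero)),
    algebraMap_int_eq, eq_intCast] at hk
  have hk' : (6 : ℤ) = k * (p : ℤ) ^ 2 := by exact_mod_cast hk
  rcases hp with rfl | rfl <;> norm_num at hk' <;> omega

theorem mem_closure_of_root {N : ℕ} (hN0 : 0 < N) {x : ℂ} (hx : x ^ N = 1) :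
    x ∈ Subring.closure ({Complex.exp (2 * Real.pi * Complex.I / N)} : Set ℂ) := by
  have : NeZero N := ⟨hN0.ne'⟩
  obtain ⟨i, -, rfl⟩ := (Complex.isPrimitiveRoot_exp N hN0.ne').eq_pow_of_pow_eq_one hx
  exact pow_mem (Subring.subset_closure (Set.mem_singleton _)) _

/-- Two unit-modulus patterns with `N`-th root phases are never unbiased in dimension six. -/
theorem result :
    ∀ N : ℕ, 0 < N →
      ((∃ j m : ℕ, (N = m ∨ N = 2 * m) ∧ Odd m ∧ m ∣ 2 ^ j + 1) ∨ ∃ j : ℕ, N ∣ 3 ^ j + 1) →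
      ∀ (a : Fin 6 → ℂ) (s t : ℂ) (ω η : Fin 6 → ℂ),
        (∀ k, ‖a k‖ = 1) → ‖s‖ ^ 2 = 1 / 6 → ‖t‖ ^ 2 = 1 / 6 →
        (∀ k, ω k ^ N = 1) → (∀ k, η k ^ N = 1) →
        ‖∑ k, conj (s * a k * ω k) * (t * a k * η k)‖ ^ 2 ≠ 1 / 6 := by
  intro N hN0 hcond a s t ω η ha hs ht hω hη heq
  set z := ∑ k, conj (ω k) * η k with hz
  have hsum : ∑ k, conj (s * a k * ω k) * (t * a k * η k) = conj s * t * z := by
    rw [hz, Finset.mul_sum]
    refine Finset.sum_congr rfl fun k _ => ?_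
    have : conj (a k) * a k = 1 := by rw [Complex.conj_mul', ha k]; simp
    rw [map_mul, map_mul]
    linear_combination conj s * t * (conj (ω k) * η k) * this
  rw [hsum, norm_mul, norm_mul, Complex.norm_conj, mul_pow, mul_pow, hs, ht] at heq
  have hz6 : z * conj z = 6 := by
    have h : ‖z‖ ^ 2 = 6 := by linarith
    rw [Complex.mul_conj', ← Complex.ofReal_pow, h]
    norm_num
  -- the phases `conj ω * η` are again `N`-th roots of unity
  have hph : ∀ k, (conj (ω k) * η k) ^ N = 1 := fun k => by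
    rw [mul_pow, ← map_pow, hω, hη, map_one, one_mul]
  rcases hcond with ⟨j, m, hNm, hm, hdvd⟩ | ⟨j, hdvd⟩
  · have hm0 : 0 < m := hm.pos
    obtain ⟨j', hj', hdvd'⟩ : ∃ j', 1 ≤ j' ∧ m ∣ 2 ^ j' + 1 := by
      rcases Nat.eq_zero_or_pos j with rfl | hj
      · refine ⟨1, le_rfl, ?_⟩
        have h2 : m ∣ 2 := by simpa using hdvd
        rcases (Nat.dvd_prime Nat.prime_two).1 h2 with rfl | rfl
        · exact one_dvd _
        · exact absurd hm (by decide)
      · exact ⟨j, hj, hdvd⟩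
    set ζ := Complex.exp (2 * Real.pi * Complex.I / m)
    refine no_norm_six hm0 (Or.inl rfl) hj' hdvd' (ζ := ζ)
      ((Complex.isPrimitiveRoot_exp m hm0.ne').pow_eq_one) ?_ hz6
    rw [hz]
    refine Subring.sum_mem _ fun k _ => ?_
    set x := conj (ω k) * η k
    have hsq : (x ^ m) ^ 2 = 1 := by
      rcases hNm with rfl | rfl
      · rw [hph k, one_pow]
      · rw [← pow_mul, mul_comm m 2, hph k]
    rcases sq_eq_one_iff.1 hsq with h1 | h1
    · exact mem_closure_of_root hm0 h1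
    · have : (-x) ^ m = 1 := by rw [hm.neg_pow, h1, neg_neg]
      simpa using neg_mem (mem_closure_of_root hm0 this)
  · obtain ⟨j', hj', hdvd'⟩ : ∃ j', 1 ≤ j' ∧ N ∣ 3 ^ j' + 1 := by
      rcases Nat.eq_zero_or_pos j with rfl | hj
      · refine ⟨1, le_rfl, dvd_trans hdvd ?_⟩
        norm_num
      · exact ⟨j, hj, hdvd⟩
    refine no_norm_six hN0 (Or.inr rfl) hj' hdvd'
      (ζ := Complex.exp (2 * Real.pi * Complex.I / N))
      ((Complex.isPrimitiveRoot_exp N hN0.ne').pow_eq_one) ?_ hz6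
    rw [hz]
    exact Subring.sum_mem _ fun k _ => mem_closure_of_root hN0 (hph k)

end Vale.Agent.Results.P355.RootOfUnityPhases
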